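/-
P235, line HUB (helper696): the row [ROOT].  The second half is the proof of `base_step2` of
R2/H598/Piece.lean (the graph enters there only through the edge `s t`).
-/
import Vale.Agent.P235.Hub.Defs

namespace Vale.Agent.P235.Hub.H696

open Vale.Agent.P235 Vale.Agent.P235.R2.H598

/-- the graph with the single edge `s t` -/
def oneEdge {V : Type} (s t : V) : SimpleGraph V := SimpleGraph.fromEdgeSet {s(s, t)}

theorem oneEdge_adj {V : Type} {s t : V} (h : s ≠ t) : (oneEdge s t).Adj s t := by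
  rw [oneEdge, SimpleGraph.fromEdgeSet_adj]
  exact ⟨rfl, h⟩

theorem eq_of_oneEdge {V : Type} {s t u v : V} (h : (oneEdge s t).Adj u v) :
    (u = s ∧ v = t) ∨ (u = t ∧ v = s) := by
  rw [oneEdge, SimpleGraph.fromEdgeSet_adj] at h
  have h1 : s(u, v) = s(s, t) := h.1
  rw [Sym2.eq_iff] at h1
  exact h1

theorem tight_oneEdge {V : Type} {d : V → V → ℝ} (hd : IsMet d) {s t : V} {c : ℝ}
    (h : RootTight d s t c) : Tight (oneEdge s t) d c := by
  obtain ⟨F, hF, hst, hlow, hup⟩ := h
  intro u v huv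
  rcases eq_of_oneEdge huv with ⟨rfl, rfl⟩ | ⟨rfl, rfl⟩
  · exact ⟨F, hF, hst, hlow, hup⟩
  · exact ⟨F, hF, by rw [hF.symm, hst, hd.symm], hlow, hup⟩

/-- [ROOT] -/
theorem root : RootStmt := by
  intro c hc hc1 V _ G d hd s t hst hRT D hD1 hD2
  obtain ⟨c0, hc0⟩ : ∃ c0, c0 = c / 2496 / 120 := ⟨_, rfl⟩
  obtain ⟨K1, hK⟩ : ∃ K1, K1 = 4 / c0 := ⟨_, rfl⟩
  rw [← hc0] at hD1 ⊢
  rw [← hK]
  have hEx : ExactAt (oneEdge s t) d (c / 2496) := (tight_oneEdge hd hRT).exactAt hc hc1 hd
  have hc0' : 0 < c0 := by rw [hc0]; positivity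
  have hc03 : c0 ≤ 1 / 3 := by rw [hc0]; linarith only [hc1]
  have hD : 0 < D := (mul_pos hc0' (hd.pos s t hst.ne)).trans_le hD1
  have hK1c : K1 * c0 = 4 := by rw [hK]; field_simp
  have hK1 : 0 < K1 := by rw [hK]; positivity
  obtain ⟨F, hF, hFst, hlow, hup, hΦ⟩ := R2.H598.piece2 (by positivity) (by linarith only [hc, hc1]) hc0
    hEx hd (oneEdge_adj hst.ne) hD1 hD2
  refine ⟨F, hF, hFst, ?_⟩
  have triF : ∀ x y z, Tri (F x y) (F x z) (F y z) := by
    intro x y z
    have := hF.Tri x y z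
    rw [hF.symm z x, hF.symm z y] at this
    exact this
  -- the chain step for all pairs
  have hstep : ∀ K, K1 ≤ K → ∀ a b τa τb, Good K (F s t) a b τa τb → ∀ u v,
      min (τa + d s u) (τb + d t u) ≤ K * pot (F u v) (comp (F s t) a b (F u s) (F u t))
      (comp (F s t) a b (F v s) (F v t)) := by
    intro K hKK a b τa τb hg u v
    rw [hFst] at hg ⊢
    have h1 := hΦ u v
    rw [hd.symm u s, hd.symm u t] at h1
    have T1 := hF.Tri s t u
    have T2 := hF.Tri s t v
    rw [hFst] at T1 T2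
    refine step hc0' hc03 (by rw [← hK]; exact hKK) hD hg T1 T2 (triF u v s) (triF u v t)
      ?_ ?_ ?_ ?_ h1
    · rw [hd.symm s u]; exact hlow u s
    · rw [hd.symm t u]; exact hlow u t
    · rw [hd.symm s u]; exact hup u s
    · rw [hd.symm t u]; exact hup u t
  have hDF : 0 < F s t := by rw [hFst]; exact hD
  have hpt : ∀ K, K1 ≤ K → ∀ x u, d x u ≤ K * F x u := by
    intro K hKK x u
    have h1 := hlow x u
    have h2 := hF.nonneg x u
    have h3 := hd.nonneg x u
    have h4 : d x u ≤ K1 * F x u := by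
      have : K1 * (c0 * d x u) ≤ K1 * F x u := mul_le_mul_of_nonneg_left h1 hK1.le
      rw [← mul_assoc, hK1c] at this
      linarith only [h3, this]
    exact h4.trans (mul_le_mul_of_nonneg_right hKK h2)
  constructor
  · intro u _ v _ _; exact hlow u v
  · intro u _ v _ _; exact hup u v
  · intro K hKK a b τa τb hg u _ v _ _
    exact hstep K hKK a b τa τb hg u v
  · intro K hKK a b τa τb hg u _
    refine (hstep K hKK a b τa τb hg u s).trans ?_
    have hT : Tri (F u s) (comp (F s t) a b (F u s) (F u t)) (comp (F s t) a b (F s s) (F s t)) :=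
      comp_tri hDF hg.1 (triF u s s) (triF u s t)
    have := mul_le_mul_of_nonneg_left (pot_le hT) (hK1.le.trans hKK)
    linarith only [this]
  · intro p _ q _ hpq hp' hq' δp δq hT hR u _ v _ _
    have hDpq : 0 < F p q := (mul_pos hc0' (hd.pos p q hpq.ne)).trans_le (hlow p q)
    have hpot : ∀ a b, Tri (F p q) a b → a ≤ pot (F p q) a b := fun a b h => pot_ge h
    have hG : Good K1 (F p q) (F u p) (F u q) (d u p) (d u q) := by
      refine ⟨hF.Tri p q u, ?_, ?_⟩
      · exact (hpt K1 le_rfl u p).trans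
          (mul_le_mul_of_nonneg_left (pot_ge (hF.Tri p q u)) hK1.le)
      · exact (hpt K1 le_rfl u q).trans
          (mul_le_mul_of_nonneg_left (pot_ge (hF.Tri p q u).swap) hK1.le)
    have g := hR _ _ _ _ hG
    rw [comp_comm hDpq] at g
    have hT2 : Tri (F u v) (comp (F p q) hp' hq' (F u p) (F u q))
        (comp (F p q) hp' hq' (F v p) (F v q)) := comp_tri hDpq hT (triF u v p) (triF u v q)
    have := mul_le_mul_of_nonneg_left (pot_ge hT2) (by linarith only [hK1] : 0 ≤ 5 * K1)
    refine le_trans ?_ (g.trans this)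
    rw [hd.symm p u, hd.symm q u, add_comm δp, add_comm δq]
  · intro x _ u _ v _ _
    refine (hpt (5 * K1) (by linarith only [hK1]) x u).trans ?_
    apply mul_le_mul_of_nonneg_left (pot_ge _) (by linarith only [hK1])
    exact hF.Tri u v x
  · intro x _ u _
    exact hpt (5 * (5 * K1)) (by linarith only [hK1]) x u

end Vale.Agent.P235.Hub.H696
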